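import Vale.Agent.P235.H56.Families

/-! Consequences of bounded `c₁` for the graphs without a `K₅` minor (helper56): deleted vertices,
packings, and excluded minors glued at vertices from planar graphs, `K₅`, `K_{3,3}` and rooted
minors of the graphs `Q r`. -/

set_option autoImplicit false

namespace Vale.Agent.P235.K5.H56

open SimpleGraph hiding Free
open Vale.Agent.P235 Vale.Agent.P235.H134 Vale.Agent.P235.H141 Vale.Agent.P235.H606
open Vale.Agent.P235.H56
open Vale.Agent.P235.H750 (RMinor RFree RK33Stmt RGridStmt)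

/-- `c₁` is bounded on the connected graphs without a `K₅` minor -/
def K5FreeStmt : Prop :=
  ∃ K : ℝ, ∀ (V : Type) [Finite V] (G : SimpleGraph V), G.Connected →
    ¬ IsMinor (⊤ : SimpleGraph (Fin 5)) G → DistortionLE G K

/-- the connected graphs built from a planar graph or a minor of some `Q r` by gluing, again and
again, at any vertex, a connected rooted graph which is planar, or `K₅`, or `K_{3,3}`, or a rooted
minor of some `(Q r, q r)` -/
inductive KTree (q : ∀ r : ℕ, (Fin 3 ⊕ Fin 2) ⊕ (Fin r × Fin r)) :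
    ∀ {W : Type}, SimpleGraph W → Prop
  | core {W : Type} {H : SimpleGraph W} : Finite W → H.Connected →
      (Planar H ∨ ∃ r, IsMinor H (H830.Q r)) → KTree q H
  | glue {W : Type} {H : SimpleGraph W} {S T : Set W} {v : W} (hT : v ∈ T) : S ∪ T = Set.univ →
      S ∩ T = {v} → (∀ a b, a ∉ T → b ∉ S → ¬ H.Adj a b) → KTree q (H.induce S) →
      (QBlock q T (H.induce T) ⟨v, hT⟩ ∨ Nonempty (H.induce T ≃g (⊤ : SimpleGraph (Fin 5)))) →
      KTree q H

/-- a minor of a graph which is built in both ways, with the roots `a` and with the roots `x` -/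
def KPiece {W : Type} (H : SimpleGraph W) : Prop :=
  ∃ (X : Type) (T : SimpleGraph X), KTree qa T ∧ KTree qx T ∧ IsMinor H T

/-- every vertex of `K₅` will do as the root -/
theorem rK5 (hK : K5FreeStmt) (k : Fin 5) : RFree (⊤ : SimpleGraph (Fin 5)) k := by
  obtain ⟨K, hK⟩ := hK
  refine fun _ => ⟨K, fun V _ G b hG _ hno => hK V G hG fun hm => ?_⟩
  obtain ⟨k', hk'⟩ := exists_root hG hm b
  have h1 : RMinor (⊤ : SimpleGraph (Fin 5)) k (⊤ : SimpleGraph (Fin 5)) k' := by
    have := H427.rminor_iso (H := (⊤ : SimpleGraph (Fin 5))) (K := (⊤ : SimpleGraph (Fin 5)))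
      (⟨Equiv.swap k k', by simp⟩) k
    simpa using this
  exact hno (H427.rminor_trans' h1 hk')

theorem block_rf2 (hK : K5FreeStmt) {U : Type} {F : SimpleGraph U} {f : U}
    {q : ∀ r : ℕ, (Fin 3 ⊕ Fin 2) ⊕ (Fin r × Fin r)}
    (hq : ∀ r, RF2 F f (H830.Q r) (q r)) {W : Type} {H : SimpleGraph W} {h : W}
    (hB : QBlock q W H h ∨ Nonempty (H ≃g (⊤ : SimpleGraph (Fin 5)))) : RF2 F f H h := by
  rcases hB with hB | ⟨⟨e⟩⟩
  · exact qblock_rf2 H638.rK33 H638.rGrid H205.planar hq hB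
  · exact rf2_of (H427.rfree_mono (H427.rminor_iso e h) (rK5 hK (e h)))

theorem ktree_rf2 (hK : K5FreeStmt) {q : ∀ r : ℕ, (Fin 3 ⊕ Fin 2) ⊕ (Fin r × Fin r)} {W : Type}
    {H : SimpleGraph W} (hH : KTree q H) :
    Finite W ∧ H.Connected ∧ ∃ h : W, ∀ (U : Type) [Finite U] (F : SimpleGraph U) (f : U),
      (∀ r, RF2 F f (H830.Q r) (q r)) → RF2 F f H h := by
  induction hH with
  | @core W H hW hc hcore =>
    refine ⟨hW, hc, ?_⟩
    rcases hcore with hpl | ⟨r, hr⟩
    · obtain ⟨h⟩ := hc.nonempty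
      refine ⟨h, fun U _ F f _ => rf2_of ?_⟩
      obtain ⟨r, -, μ, m1, m2, m3⟩ := H205.planar W H hpl
      obtain ⟨x, hx⟩ := (m1 h).nonempty
      exact H427.rfree_mono ⟨μ, m1, m2, m3, hx⟩ (H638.rGrid r x)
    · have := hc.nonempty
      obtain ⟨h, hh⟩ := exists_root (q_conn r) hr (q r)
      exact ⟨h, fun U _ F f hq => rf2_mono hh (hq r)⟩
  | @glue W H S T v hvT hST hST' hadj _ hT ihS =>
    obtain ⟨hSf, hSc, h, hSr⟩ := ihS
    have hvS : v ∈ S := (hST'.symm ▸ Set.mem_singleton v : v ∈ S ∩ T).1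
    have hT0 : Finite T ∧ (H.induce T).Connected := by
      rcases hT with hT | ⟨⟨e⟩⟩
      · exact ⟨hT.1, hT.2.1⟩
      · exact ⟨Finite.of_equiv _ e.toEquiv.symm, e.symm.connected_iff.1 connected_top⟩
    obtain ⟨hTf, hTc⟩ := hT0
    have hW : Finite W := by
      rw [← Set.finite_univ_iff, ← hST]
      exact (Set.toFinite S).union (Set.toFinite T)
    exact ⟨hW, H427.conn_glue hvS hvT hST hSc hTc, h.1, fun U _ F f hq =>
      H427.one2 U W F f H S T v hvS hvT hST hST' hadj hSc hTc (block_rf2 hK hq hT) h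
        (hSr U F f hq)⟩

theorem kPiece_free (hK : K5FreeStmt) {W : Type} {H : SimpleGraph W}
    (hH : KPiece H) : ∃ C : ℝ, Free H C := by
  obtain ⟨X, T, hA, hX, hm⟩ := hH
  obtain ⟨hf, -, h, h1⟩ := ktree_rf2 hK hA
  obtain ⟨-, -, h', h2⟩ := ktree_rf2 hK hX
  have h3 : RF2 T h' T h := h1 X T h' fun r =>
    rf2_symm (h2 _ (H830.Q r) (qa r) fun s => H427.rf2Q r s)
  obtain ⟨C, hC⟩ := h3 (Nat.card X)
  refine ⟨C, fun V _ G hG hno => ?_⟩
  obtain ⟨b⟩ := hG.nonempty
  have hno' : ¬ IsMinor T G := fun h => hno (minor_trans hm h)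
  have hn : ∀ k, ¬ RMinor T k G b := fun k ⟨μ, m1, m2, m3, _⟩ => hno' ⟨μ, m1, m2, m3⟩
  exact hC V G b hG (H786.noK_of le_rfl hno') (hn _) (hn _)

theorem k5_all (hK5 : K5FreeStmt) : ∃ C : ℝ, 1 ≤ C ∧
    (∀ (V : Type) [Finite V] (G : SimpleGraph V), G.Connected →
      ¬ IsMinor (⊤ : SimpleGraph (Fin 5)) G → DistortionLE G C) ∧
    (∀ (t : ℕ) (V : Type) [Finite V] (G : SimpleGraph V), G.Connected →
      (∃ S : Set V, S.ncard ≤ t ∧
        ∀ u ∉ S, ¬ IsMinor (⊤ : SimpleGraph (Fin 5)) (G.induce (compSet G S u))) →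
        DistortionLE G (C * Real.log (t + 2))) ∧
    (∀ (m : ℕ) (V : Type) [Finite V] (G : SimpleGraph V), G.Connected →
      (¬ ∃ A : Fin (m + 1) → Set V, (∀ i, (G.induce (A i)).Connected ∧
        IsMinor (⊤ : SimpleGraph (Fin 5)) (G.induce (A i))) ∧ ∀ i j, i ≠ j → Disjoint (A i) (A j)) →
        DistortionLE G (C * ((m : ℝ) + 1) ^ 3 * Real.log ((m : ℝ) + 2)) ∧
        DistortionLE G (C * ((m : ℝ) + 1) ^ 6 * √(Real.log ((m : ℝ) + 2)))) ∧
    (∀ (W : Type) [Finite W] (H : SimpleGraph W),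
      (∀ c : H.ConnectedComponent, KPiece (H.induce c.supp)) →
      ∃ K : ℝ, (∀ (V : Type) [Finite V] (G : SimpleGraph V), G.Connected → ¬ IsMinor H G →
        DistortionLE G K) ∧
      ∀ (t : ℕ) (V : Type) [Finite V] (G : SimpleGraph V), G.Connected →
        (∃ S : Set V, S.ncard ≤ t ∧ ∀ u ∉ S, ¬ IsMinor H (G.induce (compSet G S u))) →
          DistortionLE G (C * (K + Real.log (t + 2)))) ∧
    (∀ F : (V : Type) → SimpleGraph V → Prop, MinorClosed F →
      ((∃ (W : Type) (_ : Finite W) (H : SimpleGraph W), H.Connected ∧ KPiece H ∧ ¬ F W H) ∨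
      (∃ (W : Type) (_ : Finite W) (H : SimpleGraph W),
        (∀ c : H.ConnectedComponent, KPiece (H.induce c.supp)) ∧
        ∀ (V : Type) [Finite V] (G : SimpleGraph V), F V G → ¬ IsMinor H G)) →
      ∃ K : ℝ, ∀ (V : Type) [Finite V] (G : SimpleGraph V), G.Connected → F V G →
        DistortionLE G K) := by
  obtain ⟨A, hA1, -, -, -, -, -, h6, h7⟩ := main_of H830.sPrime H638.monoQ
    (P := fun _ H => KPiece H) fun _ _ _ h => kPiece_free hK5 h
  obtain ⟨K0, hK0⟩ := hK5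
  obtain ⟨A', hA'1, hA'⟩ := apex_log'
  obtain ⟨B, hB⟩ := H12.allStmt (max K0 1) (le_max_right _ _)
  have hlog : ∀ t : ℕ, Real.log 2 ≤ Real.log ((t : ℝ) + 2) := fun t =>
    Real.log_le_log (by norm_num) (by have : (0 : ℝ) ≤ t := Nat.cast_nonneg t; linarith)
  have hlog2 : (1 / 2 : ℝ) < Real.log 2 := by have := Real.log_two_gt_d9; linarith
  have hM1 : (1 : ℝ) ≤ max K0 1 := le_max_right _ _
  set M := max K0 1 with hM
  set C := max (max A B) (max (A' * (2 * M + 1)) M) with hC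
  have hCA : A ≤ C := (le_max_left _ _).trans (le_max_left _ _)
  have hCB : B ≤ C := (le_max_right _ _).trans (le_max_left _ _)
  have hCA' : A' * (2 * M + 1) ≤ C := (le_max_left _ _).trans (le_max_right _ _)
  have hCM : M ≤ C := (le_max_right _ _).trans (le_max_right _ _)
  have h0 : ∀ (V : Type) [Finite V] (G : SimpleGraph V), G.Connected →
      ¬ IsMinor (⊤ : SimpleGraph (Fin 5)) G → DistortionLE G M :=
    fun V _ G hG hno => (hK0 V G hG hno).mono (le_max_left _ _)
  refine ⟨C, hM1.trans hCM, fun V _ G hG hno => (h0 V G hG hno).mono hCM, ?_, ?_, ?_, h7⟩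
  · intro t V _ G hG hS
    refine (apex_of hA'1 (by linarith)
      (P := fun V G => ¬ IsMinor (⊤ : SimpleGraph (Fin 5)) G) hA' h0 t V G hG hS).mono ?_
    have h1 := hlog t
    have h2 : M ≤ 2 * M * Real.log ((t : ℝ) + 2) := by nlinarith
    calc A' * (M + Real.log ((t : ℝ) + 2))
        ≤ A' * ((2 * M + 1) * Real.log ((t : ℝ) + 2)) :=
          mul_le_mul_of_nonneg_left (by linarith) (by linarith)
      _ = A' * (2 * M + 1) * Real.log ((t : ℝ) + 2) := by ring
      _ ≤ C * Real.log ((t : ℝ) + 2) := mul_le_mul_of_nonneg_right hCA' (by linarith)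
  · intro m V _ G hG hno
    have hP : ¬ Packing G M m := by
      rintro ⟨D, hD, hd⟩
      refine hno ⟨D, fun i => ⟨(hD i).1, ?_⟩, hd⟩
      by_contra h
      exact (hD i).2 (h0 _ _ (hD i).1 h)
    have h1 := hlog m
    obtain ⟨h2, h3⟩ := hB m V G hG hP
    have hm : (0 : ℝ) ≤ m := Nat.cast_nonneg m
    refine ⟨h2.mono ?_, h3.mono ?_⟩
    · exact mul_le_mul_of_nonneg_right (mul_le_mul_of_nonneg_right hCB (by positivity))
        (by linarith)
    · exact mul_le_mul_of_nonneg_right (mul_le_mul_of_nonneg_right hCB (by positivity))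
        (Real.sqrt_nonneg _)
  · intro W _ H hH
    obtain ⟨K, hK, hK'⟩ := h6 W H hH
    refine ⟨max K 0, fun V _ G hG hno => (hK V G hG hno).mono (le_max_left _ _),
      fun t V _ G hG hS => (hK' t V G hG hS).mono ?_⟩
    have h1 := hlog t
    have h2 : (0 : ℝ) ≤ max K 0 := le_max_right _ _
    calc A * (K + Real.log ((t : ℝ) + 2)) ≤ A * (max K 0 + Real.log ((t : ℝ) + 2)) :=
          mul_le_mul_of_nonneg_left (by linarith [le_max_left K 0]) (by linarith)
      _ ≤ C * (max K 0 + Real.log ((t : ℝ) + 2)) :=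
          mul_le_mul_of_nonneg_right hCA (by linarith)

end Vale.Agent.P235.K5.H56
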