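import Vale.Agent.P235.K5.H56.Trees
import Vale.Agent.P235.K5.H12.Fin
import Vale.Agent.P235.K5.H439.Small
import Vale.Agent.P235.H206.Final

/-! Assembly of the hand-in on `K₅`-minor-free graphs and sums over triangles (helper56). -/

set_option autoImplicit false

namespace Vale.Agent.P235.K5.H56

open SimpleGraph hiding Free
open Vale.Agent.P235 Vale.Agent.P235.H134 Vale.Agent.P235.H141 Vale.Agent.P235.H606
open Vale.Agent.P235.H56
open Vale.Agent.P235.H341W (capG)
open Vale.Agent.P235.K5.H500 (PC)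

/-- a piece `G` with the clique `R` along which it is glued on: `EdgeIso` with constant `C`; if `R`
is a triangle, then `G` with a new vertex joined to `R` has no `K_{3,3}` minor -/
def GluePiece0 (C : ℝ) (V : Type) (G : SimpleGraph V) (R : Set V) : Prop :=
  G.Connected ∧ EdgeIso G C ∧ (R.ncard = 3 → ¬ IsMinor K33 (capG G R))

/-- the pieces of the graphs without a `K₅` minor -/
def KPW (V : Type) (G : SimpleGraph V) (R : Set V) : Prop :=
  G.Connected ∧ (¬ IsMinor K33 (capG G R) ∨ (Nat.card V = 8 ∧ R.ncard ≤ 2))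

theorem minor_cap {V : Type} (G : SimpleGraph V) (R : Set V) : IsMinor G (capG G R) := by
  refine ⟨fun v => {some v}, fun v => ?_, fun a b hab => ?_, fun a b hab => ?_⟩
  · exact H648.conn_single (G := capG G R) (some v)
  · rw [Set.disjoint_singleton]
    exact fun h => hab (Option.some_injective _ h)
  · exact ⟨some a, rfl, some b, rfl, hab⟩

theorem CliqueSum.mono' {k : ℕ} {P Q : ∀ V : Type, SimpleGraph V → Set V → Prop} {V : Type}
    [Finite V] {H : SimpleGraph V} (h : CliqueSum k P H)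
    (hPQ : ∀ (B : Set V) (R : Set B), P B (H.induce B) R → Q B (H.induce B) R) :
    CliqueSum k Q H := by
  obtain ⟨n, B, hB, hP⟩ := h
  exact ⟨n, B, hB, fun t ht => hPQ _ _ (hP t ht)⟩

/-- the statement on sums -/
def Sum0Stmt : Prop :=
  ∀ C : ℝ, ∃ K : ℝ, ∀ (V : Type) [Finite V] (G H : SimpleGraph V), G ≤ H → G.Connected →
    CliqueSum 3 (GluePiece0 C) H → DistortionLE G K

theorem sum0_of (hfin : ∀ c : ℝ, 0 < c → c ≤ 1 → ∃ K : ℝ, 1 ≤ K ∧ ∀ (V : Type) [Finite V]
      (G H : SimpleGraph V), G ≤ H → G.Connected → CliqueSum 3 (PC c) H → DistortionLE G K) :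
    Sum0Stmt := by
  intro C
  have hC : (0 : ℝ) < max C 1 := lt_max_of_lt_right one_pos
  obtain ⟨K, -, hK⟩ := hfin (1 / max C 1) (by positivity)
    ((div_le_one hC).2 (le_max_right _ _))
  refine ⟨K, fun V _ G H hGH hG h => hK V G H hGH hG (CliqueSum.mono' h ?_)⟩
  rintro B R ⟨h1, h2, h3⟩
  exact ⟨h1, EdgeIso.edgeExact hC fun _ => ST.H626.EdgeIso.mono' h2 (le_max_left _ _), h3⟩

theorem k5free_of (hS : Sum0Stmt)
    (hW : ∀ (V : Type) [Finite V] [Nonempty V] (G : SimpleGraph V),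
      ¬ IsMinor (⊤ : SimpleGraph (Fin 5)) G → ∃ H : SimpleGraph V, G ≤ H ∧ CliqueSum 3 KPW H) :
    K5FreeStmt := by
  obtain ⟨C0, hC0, h1, -⟩ := H12.main3
  obtain ⟨c, hc, hc1, hsm⟩ := H439.small_edgeExact 7
  obtain ⟨K, hK⟩ := hS (max C0 (1 / c))
  refine ⟨K, fun V _ G hG hno => ?_⟩
  have := hG.nonempty
  obtain ⟨H, hGH, hH⟩ := hW V G hno
  refine hK V G H hGH hG (CliqueSum.mono' hH ?_)
  rintro B R ⟨hB, h | ⟨h8, hR⟩⟩
  · refine ⟨hB, ?_, fun _ => h⟩
    exact ST.H626.EdgeIso.mono' (h1 B _ hB fun h33 => h (minor_trans h33 (minor_cap _ _))).1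
      (le_max_left _ _)
  · refine ⟨hB, ?_, fun h3 => by omega⟩
    exact ST.H626.EdgeIso.mono' ((hsm B _ (by omega)).edgeIso hc hB) (le_max_right _ _)

end Vale.Agent.P235.K5.H56
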