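import Vale.Agent.P235.K5.H56.Sum
import Vale.Agent.P235.K5.H281.Fin
import Vale.Agent.P235.K5.W.H516.ThmW

/-! Bounded `c₁` for the graphs without a `K₅` minor: everything plugged in (helper56). -/

set_option autoImplicit false

namespace Vale.Agent.P235.K5.H56

open SimpleGraph hiding Free
open Vale.Agent.P235 Vale.Agent.P235.H134 Vale.Agent.P235.H141 Vale.Agent.P235.H606
open Vale.Agent.P235.H56
open Vale.Agent.P235.H341W (capG)

theorem wIn : H281.WIn := by
  intro V _ G h3 h33 h5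
  rcases W.H516.theoremW h3 h33 h5 with ⟨S, D, g1, g2, g3, g4, g5⟩ | h
  · refine Or.inr ⟨S, D, g1, fun j => ?_, g3, g4, g5⟩
    obtain ⟨v⟩ := (g2 j).nonempty
    exact ⟨v, v.2⟩
  · exact Or.inl h

/-- **bounded `c₁` for the graphs without a `K₅` minor** -/
theorem k5free : K5FreeStmt := by
  obtain ⟨C0, hC0, h1, -⟩ := H12.main3
  obtain ⟨c, hc, hc1, hsm⟩ := H439.small_edgeExact 7
  obtain ⟨K, hK⟩ := sum0 (max C0 (1 / c))
  refine ⟨K, fun V _ G hG hno => ?_⟩
  obtain ⟨H, hGH, hH⟩ := H281.k5free wIn V G hG hno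
  refine hK V G H hGH hG (CliqueSum.mono' hH ?_)
  rintro B R ⟨hB, h | ⟨h8, hR⟩⟩
  · refine ⟨hB, ?_, fun _ => h⟩
    exact ST.H626.EdgeIso.mono' (h1 B _ hB fun h33 => h (minor_trans h33 (minor_cap _ _))).1
      (le_max_left _ _)
  · refine ⟨hB, ?_, fun h3 => by omega⟩
    exact ST.H626.EdgeIso.mono' ((hsm B _ (by omega)).edgeIso hc hB) (le_max_right _ _)

end Vale.Agent.P235.K5.H56
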