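import Vale.Agent.P235.K5.H56.SumZ

/-! The hand-in on `K₅`-minor-free graphs, sums over triangles and excluded minors drawn with one
crossing (helper56). -/

set_option autoImplicit false

namespace Vale.Agent.P235.K5.H56.Z

open SimpleGraph hiding Free
open Vale.Agent.P235 Vale.Agent.P235.H134 Vale.Agent.P235.H141 Vale.Agent.P235.H606
open Vale.Agent.P235.H56
open Vale.Agent.P235.H350 (QuasiFour)

theorem final5 :
    (∀ (k w t r : ℕ) (D : ℝ), ∃ K : ℝ, ∀ (V : Type) [Finite V] (G H : SimpleGraph V), G ≤ H →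
      G.Connected →
      (CliqueSum 3 (fun V B _ => GPiece k w t r D V B) H → EdgeIso G K) ∧
      (CliqueSum 3 (fun V B R => GPiece k w t r D V B ∨ R.ncard ≤ 1 ∧ DistortionLE B D) H →
        DistortionLE G K)) ∧
    (∀ D : ℝ, ∃ K : ℝ, ∀ Q : ∀ V : Type, SimpleGraph V → Prop,
      (∀ (V W : Type) (G : SimpleGraph V) (H : SimpleGraph W), Nonempty (G ≃g H) →
        Q V G → Q W H) →
      (∀ (V : Type) [Finite V] (G : SimpleGraph V) (A B : Set V) (s t : V), G.Adj s t →
        A ∪ B = Set.univ → A ∩ B = {s, t} → (∀ u v, u ∉ B → v ∉ A → ¬ G.Adj u v) →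
        Q A (G.induce A) → Q B (G.induce B) → Q V G) →
      (∀ (V : Type) [Finite V] (G : SimpleGraph V), G.Connected → Q V G → DistortionLE G D) →
      ∀ (V : Type) [Finite V] (G H : SimpleGraph V), G ≤ H → G.Connected →
        CliqueSum 3 (fun V B _ => Q V B) H → EdgeIso G K ∧ DistortionLE G K) ∧
    (∃ C : ℝ, 1 ≤ C ∧
    (∀ (V : Type) [Finite V] (G : SimpleGraph V), G.Connected →
      ¬ IsMinor (⊤ : SimpleGraph (Fin 5)) G → EdgeIso G C ∧ DistortionLE G C) ∧
    (∀ (w t : ℕ) (V : Type) [Finite V] (G : SimpleGraph V), G.Connected →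
      (∀ (W : Type) [Finite W] (H : SimpleGraph W), H.Connected → Conn3 H → IsMinor H G →
        ST.H626.PlanePiece w t W H ∨ ¬ IsMinor (⊤ : SimpleGraph (Fin 5)) H) →
        EdgeIso G (C * (w + Real.log (t + 2))) ∧ DistortionLE G (C * (w + Real.log (t + 2)))) ∧
    (∀ (W : Type) [Finite W] (H : SimpleGraph W),
      (∀ c : H.ConnectedComponent, XPiece (H.induce c.supp)) →
      ∃ K : ℝ, (∀ (V : Type) [Finite V] (G : SimpleGraph V), G.Connected → ¬ IsMinor H G →
        DistortionLE G K) ∧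
      ∀ (t : ℕ) (V : Type) [Finite V] (G : SimpleGraph V), G.Connected →
        (∃ S : Set V, S.ncard ≤ t ∧ ∀ u ∉ S, ¬ IsMinor H (G.induce (compSet G S u))) →
          DistortionLE G (C * (K + Real.log (t + 2))))) ∧
    (∀ (W : Type) (H : SimpleGraph W), XPiece H →
      ∃ K : ℝ, ∀ (m : ℕ) (V : Type) [Finite V] (G : SimpleGraph V), G.Connected →
      (¬ ∃ A : Fin (m + 1) → Set V, (∀ i, (G.induce (A i)).Connected ∧
        IsMinor H (G.induce (A i))) ∧ ∀ i j, i ≠ j → Disjoint (A i) (A j)) →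
        DistortionLE G (K * ((m : ℝ) + 1) ^ 3 * Real.log ((m : ℝ) + 2))) ∧
    (∀ F : (V : Type) → SimpleGraph V → Prop, MinorClosed F →
      ((∃ (W : Type) (_ : Finite W) (H : SimpleGraph W), H.Connected ∧ XPiece H ∧ ¬ F W H) ∨
      (∃ (W : Type) (_ : Finite W) (H : SimpleGraph W),
        (∀ c : H.ConnectedComponent, XPiece (H.induce c.supp)) ∧
        ∀ (V : Type) [Finite V] (G : SimpleGraph V), F V G → ¬ IsMinor H G)) →
      ∃ K : ℝ, ∀ (V : Type) [Finite V] (G : SimpleGraph V), G.Connected → F V G →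
        DistortionLE G K) ∧
    ((∀ F : (V : Type) → SimpleGraph V → Prop, MinorClosed F →
      (∃ (W : Type) (_ : Finite W) (H : SimpleGraph W), H.Connected ∧ ¬ F W H) →
      ∃ K : ℝ, ∀ (V : Type) [Finite V] (G : SimpleGraph V), G.Connected → F V G →
        DistortionLE G K) ↔
    ∀ n : ℕ, ∃ D : ℝ, ∀ (V : Type) [Finite V] (G : SimpleGraph V), G.Connected → QuasiFour G →
      ¬ IsMinor (⊤ : SimpleGraph (Fin n)) G → EdgeIso G D) := by
  obtain ⟨A, hA1, -, -, -, -, -, h6, h7⟩ := main_of H830.sPrime H638.monoQ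
    (P := fun _ H => XPiece H) fun _ _ _ h => xPiece_free h
  obtain ⟨C2, hC2, b1, b2, -, -⟩ := H492.k5_mix k5free
  have hlog : ∀ t : ℕ, (0 : ℝ) ≤ Real.log ((t : ℝ) + 2) := fun t =>
    Real.log_nonneg (by have : (0 : ℝ) ≤ t := Nat.cast_nonneg t; linarith)
  set C := max A C2 with hC
  have e1 : A ≤ C := le_max_left _ _
  have e2 : C2 ≤ C := le_max_right _ _
  refine ⟨sumX, sum32, ⟨C, hA1.trans e1, ?_, ?_, ?_⟩, fun _ _ h => pack_of (xPiece_free h), h7,
    H350.q1_iff'⟩
  · intro V _ G hG h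
    exact ⟨ST.H626.EdgeIso.mono' (b1 V G hG h).1 e2, (b1 V G hG h).2.mono e2⟩
  · intro w t V _ G hG h
    have h6 : C2 * (w + Real.log ((t : ℝ) + 2)) ≤ C * (w + Real.log ((t : ℝ) + 2)) :=
      mul_le_mul_of_nonneg_right e2 (by
        have := hlog t
        have : (0 : ℝ) ≤ w := Nat.cast_nonneg w
        linarith)
    exact ⟨ST.H626.EdgeIso.mono' (b2 w t V G hG h).1 h6, (b2 w t V G hG h).2.mono h6⟩
  · intro W _ H hH
    obtain ⟨K, h1, h2⟩ := h6 W H hH
    refine ⟨max K 0, fun V _ G hG h => (h1 V G hG h).mono (le_max_left _ _),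
      fun t V _ G hG hS => (h2 t V G hG hS).mono ?_⟩
    have := hlog t
    calc A * (K + Real.log ((t : ℝ) + 2)) ≤ A * (max K 0 + Real.log ((t : ℝ) + 2)) :=
          mul_le_mul_of_nonneg_left (by linarith [le_max_left K 0]) (by linarith)
      _ ≤ C * (max K 0 + Real.log ((t : ℝ) + 2)) :=
          mul_le_mul_of_nonneg_right e1 (by linarith [le_max_right K 0])

end Vale.Agent.P235.K5.H56.Z
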