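import Vale.Agent.P235.XC.TXDef
import Vale.Agent.P235.H56.Defs
import Vale.Agent.P235.H134.Grid.Planar

/-! Graphs drawn with one crossing, sums at vertices: definitions (helper218, helper56). -/

set_option autoImplicit false

namespace Vale.Agent.P235.K5.H56

open SimpleGraph Vale.Agent.P235.H134 Vale.Agent.P235.H56

/-- `H` is drawn in the closed unit square, the vertices as distinct points `p v`, every edge `e` as
an arc `γ e` joining the two ends of `e`, an arc contains no vertex except its ends, two different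
arcs meet only in vertices; `a` is on the left side, `b` on the right side, `c` on the lower side,
`d` on the upper side. -/
def SqDrawn {W : Type} (H : SimpleGraph W) (a b c d : W) : Prop :=
  ∃ (p : W → ℝ × ℝ) (γ : Sym2 W → ℝ → ℝ × ℝ), Function.Injective p ∧
    (∀ v, p v ∈ Set.Icc (0 : ℝ) 1 ×ˢ Set.Icc (0 : ℝ) 1) ∧
    (∀ e ∈ H.edgeSet, ContinuousOn (γ e) (Set.Icc 0 1) ∧ Set.InjOn (γ e) (Set.Icc 0 1)) ∧
    (∀ e ∈ H.edgeSet, γ e '' Set.Icc 0 1 ⊆ Set.Icc (0 : ℝ) 1 ×ˢ Set.Icc (0 : ℝ) 1) ∧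
    (∀ a b, H.Adj a b → ({γ s(a, b) 0, γ s(a, b) 1} : Set (ℝ × ℝ)) = {p a, p b}) ∧
    (∀ e ∈ H.edgeSet, ∀ a, p a ∈ γ e '' Set.Icc 0 1 → a ∈ e) ∧
    (∀ e ∈ H.edgeSet, ∀ e' ∈ H.edgeSet, e ≠ e' →
      γ e '' Set.Icc 0 1 ∩ γ e' '' Set.Icc 0 1 ⊆ Set.range p) ∧
    (p a).1 = 0 ∧ (p b).1 = 1 ∧ (p c).2 = 0 ∧ (p d).2 = 1

/-- `H` is drawn with (at most) one crossing, that of the edges `ab` and `cd`, which is sent to
infinity: the other edges are drawn in a square with `a`, `b` on two opposite sides and `c`, `d` on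
the two other sides. -/
def OneCross {W : Type} (H : SimpleGraph W) : Prop :=
  ∃ (H₀ : SimpleGraph W) (a b c d : W), SqDrawn H₀ a b c d ∧
    ∀ u v, H.Adj u v → H₀.Adj u v ∨ s(u, v) = s(a, b) ∨ s(u, v) = s(c, d)

/-- the connected graphs built from a graph drawn with one crossing, or a minor of some `CrossGrid r`,
by gluing, again and again, at any vertex, a connected graph which is planar, or `K₅`, or `K_{3,3}` -/
inductive XTree : ∀ {W : Type}, SimpleGraph W → Prop
  | core {W : Type} {H : SimpleGraph W} : Finite W → H.Connected →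
      (OneCross H ∨ ∃ r, IsMinor H (XC.CrossGrid r)) → XTree H
  | glue {W : Type} {H : SimpleGraph W} {S T : Set W} {v : W} : S ∪ T = Set.univ →
      S ∩ T = {v} → (∀ a b, a ∉ T → b ∉ S → ¬ H.Adj a b) → XTree (H.induce S) →
      Finite T → (H.induce T).Connected →
      (Planar (H.induce T) ∨ Nonempty (H.induce T ≃g (⊤ : SimpleGraph (Fin 5))) ∨
        Nonempty (H.induce T ≃g completeBipartiteGraph (Fin 3) (Fin 3))) → XTree H

end Vale.Agent.P235.K5.H56
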