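import Vale.Agent.P235.K5.H56.Trees
import Vale.Agent.P235.H578.One2

/-! Gluing at a vertex: the core needs no root (helper56). -/

set_option autoImplicit false

namespace Vale.Agent.P235.K5.H56

open SimpleGraph hiding Free
open Vale.Agent.P235 Vale.Agent.P235.H134 Vale.Agent.P235.H606 Vale.Agent.P235.H750
open Vale.Agent.P235.H56 Vale.Agent.P235.H578

/-- The excluded minors with bounded `c₁` are closed under gluing, at any vertex, a rooted graph which
is good at its root. -/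
theorem oneF_of (hN : NestStmt) (hA : H12.AllStarStmt) (hM : MonoStmt) (hB : OneB2Stmt)
    {W : Type} [Finite W] {H : SimpleGraph W} {S T : Set W} {v : W} (hS : v ∈ S) (hT : v ∈ T)
    (hST : S ∪ T = Set.univ) (hST' : S ∩ T = {v}) (hadj : ∀ a b, a ∉ T → b ∉ S → ¬ H.Adj a b)
    (hSc : (H.induce S).Connected) (hRT : RFree (H.induce T) ⟨v, hT⟩)
    (hRS : ∃ C : ℝ, Free (H.induce S) C) : ∃ C : ℝ, Free H C := by
  set r := Nat.card W with hr
  obtain ⟨K, hK1, hK⟩ := hN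
  obtain ⟨CT, hCT⟩ := hRT r
  obtain ⟨CS, hCS⟩ := hRS
  obtain ⟨c, hc1, hcT⟩ : ∃ c : ℝ, 1 ≤ c ∧ CT ≤ c := ⟨max CT 1, le_max_right _ _, le_max_left _ _⟩
  obtain ⟨KA, hKA⟩ := hA (Nat.card W + 2) (4 * c)
  refine ⟨K * ((r : ℝ) + 2) ^ 9 * (max KA 1 + max CS 1), fun V _ G hG hno => ?_⟩
  have hNo : Kr.NoK r G := H786.noK_of le_rfl hno
  refine hK r (max KA 1) (max CS 1) V G (StarIn G (Nat.card W + 3) (fun L => ∃ L₀ ⊆ L,
    (G.induce L₀).Connected ∧ ¬ DistortionLE (G.induce L₀) (2 * c))) (le_max_right _ _)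
    (le_max_right _ _) hG hNo (fun A B hAB h => starIn_mono hAB h) ?_ ?_
  · intro A hAc hstar
    by_contra hbad
    obtain ⟨Z, D, hs⟩ := hKA A (G.induce A) hAc fun h => hbad (h.mono (le_max_left _ _))
    refine hstar ⟨Subtype.val '' Z, fun i => Subtype.val '' D i, ?_, fun i => ?_,
      push_conn hs.conn, fun i => ⟨push_conn (hs.bad i).1, ?_⟩, fun i => ?_, fun i j hij => ?_,
      fun i => ?_⟩
    · rintro _ ⟨x, -, rfl⟩
      exact x.2
    · rintro _ ⟨x, -, rfl⟩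
      exact x.2
    · refine ⟨_, subset_rfl, push_conn (hs.bad i).1, fun hd => (hs.bad i).2 ?_⟩
      have h2 := hM _ _ _ _ (2 * c) (by linarith) (push_conn (hs.bad i).1) (hs.bad i).1
        minor_ind2 hd
      exact h2.mono (by linarith)
    · exact (Set.disjoint_image_iff Subtype.val_injective).2 (hs.off i)
    · exact (Set.disjoint_image_iff Subtype.val_injective).2 (hs.disj i j hij)
    · obtain ⟨z, hz, x, hx, hzx⟩ := hs.adj i
      exact ⟨z.1, ⟨z, hz, rfl⟩, x.1, ⟨x, hx, rfl⟩, hzx⟩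
  · intro X _ Q p hQ hfib hQ1 _
    refine (hCS X Q hQ fun hm => ?_).mono (le_max_left _ _)
    obtain ⟨b⟩ := hG.nonempty
    have : Nonempty S := ⟨⟨v, hS⟩⟩
    obtain ⟨k, hk⟩ := exists_root hQ hm (p b)
    rcases hB W H S T v hS hT hST hST' hadj hSc V X G Q p b k _ hG
      (fun L L' hL _ _ ⟨L₀, h0, h1⟩ => ⟨L₀, h0.trans hL, h1⟩) hfib hQ1 hk with
      h1 | ⟨L, B, y, z, h1, ⟨L₀, hL0, hL1, hL2⟩, h3, h4, h5, h6, h7, h8, h9⟩
    · obtain ⟨μ, m1, m2, m3, -⟩ := h1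
      exact hno ⟨μ, m1, m2, m3⟩
    · refine hL2 (hM L L₀ (G.induce L) (G.induce L₀) c hc1 h1 hL1 (minor_ind hL0)
        ((hCT L (G.induce L) ⟨y, h3⟩ h1 (fun h => hNo (minor_push h)) fun hm => h9 ?_).mono hcT))
      obtain ⟨μ, m1, m2, m3, m4⟩ := hm
      refine ⟨fun a => Subtype.val '' μ a, fun a => ⟨push_conn (m1 a), ?_⟩, fun a c hac => ?_,
        fun a c hac => ?_, ⟨_, m4, rfl⟩⟩
      · rintro _ ⟨x, -, rfl⟩
        exact x.2
      · exact (Set.disjoint_image_iff Subtype.val_injective).2 (m2 a c hac)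
      · obtain ⟨x, hx, w, hw, hxw⟩ := m3 a c hac
        exact ⟨_, ⟨x, hx, rfl⟩, _, ⟨w, hw, rfl⟩, hxw⟩

/-- planar blocks, `K₅` and `K_{3,3}` are good at every root -/
theorem rfree_block (hK : K5FreeStmt) {W : Type} [Finite W] {H : SimpleGraph W} (h : W)
    (hB : Planar H ∨ Nonempty (H ≃g (⊤ : SimpleGraph (Fin 5))) ∨
      Nonempty (H ≃g completeBipartiteGraph (Fin 3) (Fin 3))) : RFree H h := by
  rcases hB with hpl | ⟨⟨e⟩⟩ | ⟨⟨e⟩⟩
  · obtain ⟨r, -, μ, m1, m2, m3⟩ := H205.planar W H hpl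
    obtain ⟨x, hx⟩ := (m1 h).nonempty
    exact H427.rfree_mono ⟨μ, m1, m2, m3, hx⟩ (H638.rGrid r x)
  · exact H427.rfree_mono (H427.rminor_iso e h) (rK5 hK (e h))
  · exact H427.rfree_mono (H427.rminor_iso e h) (H638.rK33 (e h))

/-- The excluded minors with bounded `c₁` are closed under gluing planar graphs, `K₅` and `K_{3,3}` at
any vertex. -/
theorem glue_block (hK : K5FreeStmt) {W : Type} [Finite W] {H : SimpleGraph W} {S T : Set W}
    {v : W} (hST : S ∪ T = Set.univ) (hST' : S ∩ T = {v})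
    (hadj : ∀ a b, a ∉ T → b ∉ S → ¬ H.Adj a b) (hSc : (H.induce S).Connected)
    (hB : Planar (H.induce T) ∨ Nonempty (H.induce T ≃g (⊤ : SimpleGraph (Fin 5))) ∨
      Nonempty (H.induce T ≃g completeBipartiteGraph (Fin 3) (Fin 3)))
    (hRS : ∃ C : ℝ, Free (H.induce S) C) : ∃ C : ℝ, Free H C := by
  have hv : v ∈ S ∩ T := hST'.symm ▸ Set.mem_singleton v
  exact oneF_of H427.nestStmt H12.allStar H406.mono H427.OneB2.oneB2 hv.1 hv.2 hST hST' hadj hSc
    (rfree_block hK _ hB) hRS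

end Vale.Agent.P235.K5.H56
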