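import Vale.Agent.P235.K5.H12.Int
import Vale.Agent.P235.R2.H341.CapDefs
import Vale.Agent.P235.H56.Defs
import Vale.Agent.P235.H206.Defs

/-! The pieces of the hand-in on `K₅`-minor-free graphs (helper56). -/

set_option autoImplicit false

namespace Vale.Agent.P235.K5.H56

open SimpleGraph
open Vale.Agent.P235 Vale.Agent.P235.H134 Vale.Agent.P235.H56

/-- A piece `G` with the clique `R` along which it is glued on: `G` has treewidth at most `w`; or `G`
is connected and has no `K₅` minor; or `G` is connected and `G` with a new vertex joined to `R` has no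
`K_{3,3}` minor; or `R` has at most two vertices and `EdgeIso G C`; or `R` has at most one vertex and
`c₁(G) ≤ C`. -/
def SumPiece (w : ℕ) (C : ℝ) (V : Type) (G : SimpleGraph V) (R : Set V) : Prop :=
  TreewidthLE G w ∨ G.Connected ∧ (¬ IsMinor (⊤ : SimpleGraph (Fin 5)) G ∨
    ¬ IsMinor (completeBipartiteGraph (Fin 3) (Fin 3)) (H341W.capG G R) ∨
    (R.ncard ≤ 2 ∧ EdgeIso G C) ∨ (R.ncard ≤ 1 ∧ DistortionLE G C))

end Vale.Agent.P235.K5.H56
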