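import Vale.Agent.P235.K5.H56.Assemble
import Vale.Agent.P235.K5.H320.Slot
import Vale.Agent.P235.K5.H750.Presc3
import Vale.Agent.P235.K5.H803.Fin

/-! Sums over triangles: everything plugged in (helper56). -/

set_option autoImplicit false

namespace Vale.Agent.P235.K5.H56

open SimpleGraph hiding Free
open Vale.Agent.P235 Vale.Agent.P235.H134 Vale.Agent.P235.H141 Vale.Agent.P235.H606
open Vale.Agent.P235.H56
open Vale.Agent.P235.H341W (capG)
open Vale.Agent.P235.K5.H500 (PC)

theorem sum0 : Sum0Stmt :=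
  sum0_of fun c hc hc1 => H12.fin H320.nthm H750.prescStmt c hc hc1

/-- sums of graphs with neither a `K₅` nor a `K_{3,3}` minor along any cliques with at most three
vertices -/
theorem planarSums : ∃ C : ℝ, ∀ (V : Type) [Finite V] (G H : SimpleGraph V) (n : ℕ)
    (B : ℕ → Set V), G ≤ H → G.Connected → Glued 3 H n B →
    (∀ t < n, ¬ IsMinor (⊤ : SimpleGraph (Fin 5)) (H.induce (B t)) ∧
      ¬ IsMinor (completeBipartiteGraph (Fin 3) (Fin 3)) (H.induce (B t))) → DistortionLE G C := by
  obtain ⟨C0, hC0, h1, -⟩ := H12.main3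
  obtain ⟨K, hK⟩ := sum0 C0
  refine ⟨K, fun V _ G H n B hGH hG hB h => ?_⟩
  have hS := H803.planarSum hB (fun t ht => (h t ht).1) (fun t ht => (h t ht).2)
  refine hK V G H hGH hG (CliqueSum.mono' hS ?_)
  rintro A R ⟨hA, hno⟩
  exact ⟨hA, (h1 A _ hA fun h33 => hno (minor_trans h33 (minor_cap _ _))).1, fun _ => hno⟩

end Vale.Agent.P235.K5.H56
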