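import Vale.Agent.P235.K5.H56.PieceDefs
import Vale.Agent.P235.K5.H56.Close
import Vale.Agent.P235.K5.H266.MixCore
import Vale.Agent.P235.K5.H477.Sum
import Vale.Agent.P235.K5.SX.H801.Fin

/-! Sums along cliques with at most three vertices of graphs without a `K₅` minor, graphs of bounded
treewidth and other pieces (helper56). -/

set_option autoImplicit false

namespace Vale.Agent.P235.K5.H56

open SimpleGraph hiding Free
open Vale.Agent.P235 Vale.Agent.P235.H134 Vale.Agent.P235.H141 Vale.Agent.P235.H606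
open Vale.Agent.P235.H56
open Vale.Agent.P235.H341W (capG)
open Vale.Agent.P235.K5.H477 (PR)
open Vale.Agent.P235.K5.H281

theorem sumR_of
    (hfin : ∀ (w : ℕ) (c : ℝ), 0 < c → c ≤ 1 → ∃ K : ℝ, 1 ≤ K ∧ ∀ (V : Type) [Finite V]
      (G H : SimpleGraph V), G ≤ H → G.Connected →
      CliqueSum 3 (fun V G R => TreewidthLE G w ∨ PR c V G R) H → DistortionLE G K)
    (w : ℕ) (C : ℝ) : ∃ K : ℝ, ∀ (V : Type) [Finite V] (G H : SimpleGraph V), G ≤ H →
      G.Connected → CliqueSum 3 (SumPiece w C) H → DistortionLE G K := by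
  obtain ⟨C0, hC0, h1, -⟩ := H12.main3
  obtain ⟨c, hc, hc1, hsm⟩ := H439.small_edgeExact 7
  set M : ℝ := max (max C C0) (1 / c) with hM
  have hM1 : (1 : ℝ) ≤ M := (one_le_one_div hc hc1).trans (le_max_right _ _)
  have hM0 : (0 : ℝ) < M := by linarith
  have hCM : C ≤ M := (le_max_left _ _).trans (le_max_left _ _)
  have hC0M : C0 ≤ M := (le_max_right _ _).trans (le_max_left _ _)
  obtain ⟨K, -, hK⟩ := hfin w (1 / M) (by positivity) ((div_le_one hM0).2 hM1)
  refine ⟨K, fun V _ G H hGH hG h => ?_⟩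
  have := hG.nonempty
  obtain ⟨n, B, hB, hp⟩ := h
  have hcap : ∀ (W : Set V) (K : SimpleGraph W) (T : Set W), K.Connected →
      ¬ IsMinor K33 (capG K T) → PR (1 / M) W K T := by
    intro W K T h2 h3
    exact H477.PR_of_PC ⟨h2, EdgeIso.edgeExact hM0 fun _ => ST.H626.EdgeIso.mono'
      (h1 W _ h2 fun h33 => h3 (minor_trans h33 (minor_cap _ _))).1 hC0M, fun _ => h3⟩
  obtain ⟨H', hHH', hS⟩ := H266.refine_sum
    (P := fun V G R => TreewidthLE G w ∨ PR (1 / M) V G R) hB fun t ht => by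
      have hsub : Adh B t ⊆ B t := fun v hv => hv.1
      rcases hp t ht with h | ⟨hc', h | h | ⟨hR, h⟩ | ⟨hR, h⟩⟩
      · exact RootedOn.single hsub (Or.inl h)
      · refine H266.rooted_imp (P := PW) (RootedOn.of_induce isoInv hsub (rooted_of wIn _ (B t)
          (H.induce (B t)) {x | (x : V) ∈ Adh B t} (Nat.lt_succ_self _) hc' h ?_ ?_)) ?_
        · intro u hu v hv huv
          exact hB.clique t ht u hu v hv fun e => huv (Subtype.ext e)
        · exact (ncard_sub (B t) (Adh B t)).trans (hB.card t ht)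
        · rintro W K T ⟨h1, h2 | ⟨h8, hT⟩⟩
          · exact Or.inr (hcap W K T h1 h2)
          · exact Or.inr (H477.PR_of_PC ⟨h1, EdgeIso.edgeExact hM0 fun _ =>
              ST.H626.EdgeIso.mono' ((hsm W K (by omega)).edgeIso hc h1) (le_max_right _ _),
              fun h3 => by omega⟩)
      · exact RootedOn.single hsub (Or.inr (hcap _ _ _ hc' h))
      · refine RootedOn.single hsub (Or.inr (H477.PR_of_PC ⟨hc', EdgeIso.edgeExact hM0 fun _ =>
          ST.H626.EdgeIso.mono' h hCM, fun h3 => ?_⟩))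
        exact absurd h3 (by have := hR; omega)
      · exact RootedOn.single hsub (Or.inr (H477.PR_of_dist hc' hM1 (h.mono hCM) hR))
  exact hK V G H' (hGH.trans hHH') hG hS

end Vale.Agent.P235.K5.H56
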