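import Vale.Agent.P235.K5.H56.ZDefs
import Vale.Agent.P235.K5.H56.Close
import Vale.Agent.P235.K5.H56.OneF
import Vale.Agent.P235.K5.H266.MixCore
import Vale.Agent.P235.K5.H266.Conn
import Vale.Agent.P235.K5.H477.EX
import Vale.Agent.P235.H492.Mix5
import Vale.Agent.P235.K5.EX.H452.All
import Vale.Agent.P235.K5.EX.H719.EI
import Vale.Agent.P235.K5.H492.Ex4
import Vale.Agent.P235.XC.H492.All
import Vale.Agent.P235.XC.H783.Draw
import Vale.Agent.P235.XC.H281.XTree
import Vale.Agent.P235.K5.EX.H719.Cls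
import Vale.Agent.P235.H350.Q1Fin

/-! Sums along cliques with at most three vertices of arbitrary `EdgeIso` graphs; excluded minors
which are drawn with one crossing (helper56). -/

set_option autoImplicit false

namespace Vale.Agent.P235.K5.H56.Z

open SimpleGraph hiding Free
open Vale.Agent.P235 Vale.Agent.P235.H134 Vale.Agent.P235.H141 Vale.Agent.P235.H606
open Vale.Agent.P235.H56
open Vale.Agent.P235.K5.H477 (GluePieceX)
open Vale.Agent.P235.K5.H281

/-- a piece is a rooted sum of `EdgeIso` graphs -/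
theorem gpiece_rooted (k w t r : ℕ) (C : ℝ) : ∃ M : ℝ, 1 ≤ M ∧ C ≤ M ∧
    ∀ (V : Type) [Finite V] (H : SimpleGraph V) (B R : Set V), R ⊆ B →
      (∀ u ∈ R, ∀ v ∈ R, u ≠ v → H.Adj u v) → R.ncard ≤ 3 → (H.induce B).Connected →
      GPiece k w t r C B (H.induce B) →
      RootedOn 3 (fun V G _ => G.Connected ∧ EdgeIso G M) H B R := by
  obtain ⟨c, hc, hc1, hsm⟩ := H439.small_edgeExact 4
  obtain ⟨C5, hC5, h5, -⟩ := H492.k5_mix k5free
  obtain ⟨C0, -, -, -, -, h4, -⟩ := ST.H945.all6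
  obtain ⟨K1, hK1⟩ := h4 k w t
  obtain ⟨K2, -, hK2⟩ := XC.H492.onecross r
  refine ⟨max (max C C5) (max (max K1 1) (max K2 (1 / c))), ?_, ?_, ?_⟩
  · exact (le_max_right K1 1).trans ((le_max_left _ _).trans (le_max_right _ _))
  · exact (le_max_left _ _).trans (le_max_left _ _)
  · set M : ℝ := max (max C C5) (max (max K1 1) (max K2 (1 / c))) with hM
    have e1 : C ≤ M := (le_max_left _ _).trans (le_max_left _ _)
    have e2 : C5 ≤ M := (le_max_right _ _).trans (le_max_left _ _)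
    have e3 : K1 ≤ M := (le_max_left _ _).trans ((le_max_left _ _).trans (le_max_right _ _))
    have e4 : 1 / c ≤ M := (le_max_right _ _).trans ((le_max_right _ _).trans (le_max_right _ _))
    have e5 : K2 ≤ M := (le_max_left _ _).trans ((le_max_right _ _).trans (le_max_right _ _))
    intro V _ H B R hRB hcl hR hc' hp
    rcases hp with h | h
    · exact RootedOn.single hRB ⟨hc', ST.H626.EdgeIso.mono' h e1⟩
    · refine H266.rooted_imp (P := PM (H.induce B)) (RootedOn.of_induce (pm_iso _) hRB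
        (rooted4 _ _ B (H.induce B) {x | (x : V) ∈ R} (Nat.lt_succ_self _) hc'
          (minor_refl _) ?_ ?_)) ?_
      · intro u hu v hv huv
        exact hcl u hu v hv fun e => huv (Subtype.ext e)
      · exact (ncard_sub B R).trans hR
      · rintro W K T ⟨h1, h2, h3 | h3, -⟩
        · exact ⟨h1, ST.H626.EdgeIso.mono' ((hsm W K (by omega)).edgeIso hc h1) e4⟩
        · refine ⟨h1, ?_⟩
          rcases h W K h1 (H350.quasiFour_of_quasi4 h3) h2 with h4 | h4 | h4 | h4
          · exact ST.H626.EdgeIso.mono' (hK1 W K h1 (EdgeSumOf.base h4)).1 e3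
          · exact ST.H626.EdgeIso.mono' (h5 W K h1 h4).1 e2
          · exact ST.H626.EdgeIso.mono' (hK2 W K h1 h4).1 e5
          · exact ST.H626.EdgeIso.mono' h4 e1

/-- **Sums of arbitrary `EdgeIso` graphs along cliques with at most three vertices.** -/
theorem sumX (k w t r : ℕ) (C : ℝ) : ∃ K : ℝ, ∀ (V : Type) [Finite V] (G H : SimpleGraph V),
    G ≤ H → G.Connected →
    (CliqueSum 3 (fun V G _ => GPiece k w t r C V G) H → EdgeIso G K) ∧
    (CliqueSum 3 (fun V G R => GPiece k w t r C V G ∨ R.ncard ≤ 1 ∧ DistortionLE G C) H →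
      DistortionLE G K) := by
  obtain ⟨M, hM1, hCM, hM⟩ := gpiece_rooted k w t r C
  obtain ⟨K1, -, hK1⟩ := EX.H719.ei' EX.H452.px3 EX.H371.px2 M hM1
  obtain ⟨K2, hK2⟩ := H477.sumX (q := EX.H452.qSL) H477.half_SLq
    (fun _ hc hc1 => EX.H452.pieceSL EX.H452.px3 EX.H371.px2 hc hc1) M
  refine ⟨max K1 K2, fun V _ G H hGH hG => ⟨fun h => ?_, fun h => ?_⟩⟩
  · have := hG.nonempty
    obtain ⟨n, B, hB, hp⟩ := H266.cliqueSum_conn (hG.mono hGH).preconnected h
    obtain ⟨H', hHH', hS⟩ := H266.refine_sum (P := fun V G _ => G.Connected ∧ EdgeIso G M) hB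
      fun s hs => hM V H (B s) (Adh B s) (fun v hv => hv.1) (hB.clique s hs) (hB.card s hs)
        (hp s hs).1 (hp s hs).2
    exact ST.H626.EdgeIso.mono' (hK1 V G H' (hGH.trans hHH') hG hS).1 (le_max_left _ _)
  · have := hG.nonempty
    obtain ⟨n, B, hB, hp⟩ := H266.cliqueSum_conn (hG.mono hGH).preconnected h
    obtain ⟨H', hHH', hS⟩ := H266.refine_sum (P := GluePieceX M) hB fun s hs => by
      have hsub : Adh B s ⊆ B s := fun v hv => hv.1
      obtain ⟨h1, h | ⟨h2, h3⟩⟩ := hp s hs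
      · exact H266.rooted_imp (hM V H (B s) (Adh B s) hsub (hB.clique s hs) (hB.card s hs) h1 h)
          fun _ _ _ h => ⟨h.1, Or.inr h.2⟩
      · exact RootedOn.single hsub ⟨h1, Or.inl ⟨h2, h3.mono hCM⟩⟩
    exact (hK2 V G H' (hGH.trans hHH') hG hS).mono (le_max_right _ _)

theorem cross_free (r : ℕ) : ∃ K : ℝ, Free (XC.TX r) K := by
  obtain ⟨K, -, hK⟩ := XC.H492.onecross r
  exact ⟨K, fun V _ G hG hno => (hK V G hG hno).2⟩

/-- the graphs in `XTree` as excluded minors -/
theorem xtree_free {W : Type} {H : SimpleGraph W} (h : XTree H) :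
    Finite W ∧ H.Connected ∧ ∃ C : ℝ, Free H C := by
  induction h with
  | @core W H hW hc hcore =>
    refine ⟨hW, hc, ?_⟩
    obtain ⟨r, hr⟩ : ∃ r, IsMinor H (XC.TX r) := by
      rcases hcore with h | h | ⟨r, h⟩
      · obtain ⟨r, -, h⟩ := XC.H783.planar_tx H h
        exact ⟨r, h⟩
      · obtain ⟨r, -, h⟩ := XC.H783.onex H h
        exact ⟨r, h⟩
      · exact ⟨r, h⟩
    obtain ⟨K, -, hK⟩ := XC.H492.onecross_minor hr
    exact ⟨K, fun V _ G hG hno => (hK V G hG hno).2⟩
  | @glue W H S T v hvT hST hST' hadj _ hTf hTc hB ihS =>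
    obtain ⟨hSf, hSc, hfree⟩ := ihS
    have hv : v ∈ S ∩ T := hST'.symm ▸ Set.mem_singleton v
    have hW : Finite W := by
      rw [← Set.finite_univ_iff, ← hST]
      exact (Set.toFinite S).union (Set.toFinite T)
    refine ⟨hW, H427.conn_glue hv.1 hvT hST hSc hTc, ?_⟩
    refine oneF_of H427.nestStmt H12.allStar H406.mono H427.OneB2.oneB2 hv.1 hvT hST hST' hadj hSc
      ?_ hfree
    rcases hB with h | h | h | ⟨r, h⟩
    · exact rfree_block k5free _ (Or.inl h)
    · exact rfree_block k5free _ (Or.inr (Or.inl h))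
    · exact rfree_block k5free _ (Or.inr (Or.inr h))
    · exact H427.rfree_mono h (XC.H281.rTXfree cross_free r)

/-- **the excluded minors** -/
theorem xPiece_free {W : Type} {H : SimpleGraph W} (h : XPiece H) : ∃ C : ℝ, Free H C := by
  obtain ⟨X, T, hT, hm⟩ := h
  obtain ⟨-, -, K, hK⟩ := xtree_free hT
  exact ⟨K, fun V _ G hG hno => hK V G hG fun h => hno (minor_trans hm h)⟩

/-- **sums over three vertices reduce to sums over two vertices** -/
theorem sum32 (D : ℝ) : ∃ K : ℝ, ∀ Q : ∀ V : Type, SimpleGraph V → Prop,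
      (∀ (V W : Type) (G : SimpleGraph V) (H : SimpleGraph W), Nonempty (G ≃g H) →
        Q V G → Q W H) →
      (∀ (V : Type) [Finite V] (G : SimpleGraph V) (A B : Set V) (s t : V), G.Adj s t →
        A ∪ B = Set.univ → A ∩ B = {s, t} → (∀ u v, u ∉ B → v ∉ A → ¬ G.Adj u v) →
        Q A (G.induce A) → Q B (G.induce B) → Q V G) →
      (∀ (V : Type) [Finite V] (G : SimpleGraph V), G.Connected → Q V G → DistortionLE G D) →
      ∀ (V : Type) [Finite V] (G H : SimpleGraph V), G ≤ H → G.Connected →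
        CliqueSum 3 (fun V B _ => Q V B) H → EdgeIso G K ∧ DistortionLE G K := by
  obtain ⟨K, -, h⟩ := EX.H719.sum3_of_sum2 (max D 1) (le_max_right _ _)
  exact ⟨K, fun Q h1 h2 h3 V _ G H hGH hG hs => h Q h1 h2
    (fun V _ G a b => (h3 V G a b).mono (le_max_left _ _)) V G H hGH hG
    (H266.cliqueSum_conn (hG.mono hGH).preconnected hs)⟩

/-- packing -/
theorem pack_of {W : Type} {H : SimpleGraph W} (h : ∃ C : ℝ, Free H C) :
    ∃ K : ℝ, ∀ (m : ℕ) (V : Type) [Finite V] (G : SimpleGraph V), G.Connected →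
      (¬ ∃ A : Fin (m + 1) → Set V, (∀ i, (G.induce (A i)).Connected ∧
        IsMinor H (G.induce (A i))) ∧ ∀ i j, i ≠ j → Disjoint (A i) (A j)) →
        DistortionLE G (K * ((m : ℝ) + 1) ^ 3 * Real.log ((m : ℝ) + 2)) := by
  obtain ⟨K0, hK0⟩ := h
  obtain ⟨B, hB⟩ := H12.allStmt (max K0 1) (le_max_right _ _)
  refine ⟨B, fun m V _ G hG hno => (hB m V G hG ?_).1⟩
  rintro ⟨D, hD, hd⟩
  refine hno ⟨D, fun i => ⟨(hD i).1, ?_⟩, hd⟩
  by_contra h
  exact (hD i).2 ((hK0 _ _ (hD i).1 h).mono (le_max_left _ _))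

end Vale.Agent.P235.K5.H56.Z
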