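import Vale.Agent.P235.K5.H56.OneDef
import Vale.Agent.P235.K5.H56.Trees
import Vale.Agent.P235.H350.Defs
import Vale.Agent.P235.H206.Defs
import Vale.Agent.P235.ST.H945.TwSum

/-! The pieces and the excluded minors of the hand-in on `K₅`-minor-free graphs (helper56). -/

set_option autoImplicit false

namespace Vale.Agent.P235.K5.H56

open SimpleGraph
open Vale.Agent.P235 Vale.Agent.P235.H134 Vale.Agent.P235.H56
open Vale.Agent.P235.H350 (QuasiFour)

/-- a `KPiece`, or a minor of a graph in `XTree` -/
def XPiece {W : Type} (H : SimpleGraph W) : Prop :=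
  KPiece H ∨ ∃ (X : Type) (T : SimpleGraph X), XTree T ∧ IsMinor H T

/-- `EdgeIso G C`, or every connected quasi-4-connected minor `H` of `G` is planar, or has treewidth
at most `k`, or has pathwidth or shortest path depth at most `w` after deleting `t` vertices, or has
no `K₅` minor, or no minor `CrossGrid r`, or is `EdgeIso` with constant `C`. -/
def GPiece (k w t r : ℕ) (C : ℝ) (V : Type) (G : SimpleGraph V) : Prop :=
  EdgeIso G C ∨
    ∀ (W : Type) [Finite W] (H : SimpleGraph W), H.Connected → QuasiFour H → IsMinor H G →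
      ST.H945.PlaneTw k w t W H ∨ ¬ IsMinor (⊤ : SimpleGraph (Fin 5)) H ∨
        ¬ IsMinor (XC.CrossGrid r) H ∨ EdgeIso H C

end Vale.Agent.P235.K5.H56
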