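import Vale.Agent.P235.XC.TXDef
import Vale.Agent.P235.XC.H783.OneXDef
import Vale.Agent.P235.H134.Grid.Planar
import Vale.Agent.P235.H750.VDefs
import Vale.Agent.P235.H350.Defs
import Vale.Agent.P235.H206.Defs
import Vale.Agent.P235.ST.H945.TwSum

/-! The pieces and the excluded minors of the hand-in on `K₅`-minor-free graphs (helper56). -/

set_option autoImplicit false

namespace Vale.Agent.P235.K5.H56.Z

open SimpleGraph
open Vale.Agent.P235 Vale.Agent.P235.H134 Vale.Agent.P235.H56
open Vale.Agent.P235.H350 (QuasiFour)
open Vale.Agent.P235.H750 (RMinor)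

/-- `EdgeIso G C`, or every connected quasi-4-connected minor `H` of `G` is planar, or has treewidth
at most `k`, or has pathwidth or shortest path depth at most `w` after deleting `t` vertices, or has
no `K₅` minor, or no minor `CrossGrid r`, or is `EdgeIso` with constant `C`. -/
def GPiece (k w t r : ℕ) (C : ℝ) (V : Type) (G : SimpleGraph V) : Prop :=
  EdgeIso G C ∨
    ∀ (W : Type) [Finite W] (H : SimpleGraph W), H.Connected → QuasiFour H → IsMinor H G →
      ST.H945.PlaneTw k w t W H ∨ ¬ IsMinor (⊤ : SimpleGraph (Fin 5)) H ∨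
        ¬ IsMinor (XC.CrossGrid r) H ∨ EdgeIso H C

/-- The connected graphs built from a graph which is planar, or drawn in the plane with one crossing,
or a minor of some `CrossGrid r`, by gluing, again and again, at any vertex, a connected graph which
is planar, or `K₅`, or `K_{3,3}`, or a rooted minor of some `(CrossGrid r, p)`, where `p` is the
vertex joined to the first and the last row. -/
inductive XTree : ∀ {W : Type}, SimpleGraph W → Prop
  | core {W : Type} {H : SimpleGraph W} : Finite W → H.Connected →
      (Planar H ∨ XC.H783.OneX H ∨ ∃ r, IsMinor H (XC.CrossGrid r)) → XTree H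
  | glue {W : Type} {H : SimpleGraph W} {S T : Set W} {v : W} (hT : v ∈ T) : S ∪ T = Set.univ →
      S ∩ T = {v} → (∀ a b, a ∉ T → b ∉ S → ¬ H.Adj a b) → XTree (H.induce S) →
      Finite T → (H.induce T).Connected →
      (Planar (H.induce T) ∨ Nonempty (H.induce T ≃g (⊤ : SimpleGraph (Fin 5))) ∨
        Nonempty (H.induce T ≃g completeBipartiteGraph (Fin 3) (Fin 3)) ∨
        ∃ r, RMinor (H.induce T) ⟨v, hT⟩ (XC.CrossGrid r) (Sum.inl 0)) → XTree H

/-- a minor of a graph in `XTree` -/
def XPiece {W : Type} (H : SimpleGraph W) : Prop :=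
  ∃ (X : Type) (T : SimpleGraph X), XTree T ∧ IsMinor H T

end Vale.Agent.P235.K5.H56.Z
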